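import Vale.Agent.P116.S.Defs
import Vale.Agent.P116.W.Bas

/-! P116 T/Pl (owner helper74, no task): planar interfaces of step (6). -/

open Metric Set Filter Function Topology Complex

noncomputable section

namespace Vale.Agent.P116

/-- `g` maps `Eᶜ ∪ {∞}` conformally onto `Xᶜ ∪ {∞}`, fixing `∞`. -/
structure Glob (E : Set ℂ) (g : ℂ → ℂ) (X : Set ℂ) : Prop where
  hol : DifferentiableOn ℂ g Eᶜ
  inj : InjOn g Eᶜ
  img : g '' Eᶜ = Xᶜ
  inf : Tendsto g (cocompact ℂ) (cocompact ℂ)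

/-- `F` is compact with squares and points as components, `φ` is univalent near `F`. -/
structure Sq (F V : Set ℂ) (φ : ℂ → ℂ) : Prop where
  cpt : IsCompact F
  op : IsOpen V
  sub : F ⊆ V
  hol : DifferentiableOn ℂ φ V
  inj : InjOn φ V
  cmp : ∀ y ∈ F, ∃ (ζ : ℂ) (σ : ℝ), 0 ≤ σ ∧ connectedComponentIn F y = sqr ζ σ

/-- `X` is compact with discs and points as components. -/
structure Circ (X : Set ℂ) : Prop where
  cpt : IsCompact X
  cmp : ∀ y ∈ X, ∃ (c : ℂ) (r : ℝ), 0 ≤ r ∧ connectedComponentIn X y = closedBall c r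

/-- The conclusion of Koebe's theorem for finitely many compact sets `K i`. -/
structure Koe {ι : Type} (K : ι → Set ℂ) (g : ℂ → ℂ) (c : ι → ℂ) (r : ι → ℝ) : Prop where
  glob : Glob (⋃ i, K i) g (⋃ i, closedBall (c i) (r i))
  nn : ∀ i, 0 ≤ r i
  dis : Pairwise fun i j => Disjoint (closedBall (c i) (r i)) (closedBall (c j) (r j))
  clu : ∀ i, ∀ ε : ℝ, 0 < ε → ∃ U, IsOpen U ∧ K i ⊆ U ∧ ∀ z ∈ U \ ⋃ j, K j,
    g z ∈ ball (c i) (r i + ε)

end Vale.Agent.P116
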