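import Vale.Agent.P116.T.Glue2
import Vale.Agent.P116.W.Weld

/-! P116 T/Glue3: the global map onto the complement of images of squares. -/

open Metric Set Filter Function Topology Complex

noncomputable section

namespace Vale.Agent.P116

theorem ball_Q_glue3 {z : ℂ} (h : ‖z - ctr‖ < 1 / 2) : z ∈ Q := by
  have h1 := abs_lt.1 ((abs_re_le_norm (z - ctr)).trans_lt h)
  have h2 := abs_lt.1 ((abs_im_le_norm (z - ctr)).trans_lt h)
  simp only [sub_re, sub_im, ctr] at h1 h2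
  exact ⟨⟨by linarith [h1.1], by linarith [h1.2]⟩, by linarith [h2.1], by linarith [h2.2]⟩

/-- `End.weld` for `end_of_out` (bounded by `cpt_of_out` with `s = 1 / 3`); `V` is the whole set,
`Ψ z = φ (f z)` on `ball ctr (1 / 3)` and `ψ (z - ctr)` outside. -/
theorem glob_of_out {E : Set ℂ} {f : ℂ → ℂ} {ζ : Cp E → ℂ} {σ : Cp E → ℝ} (hE : Dom E)
    (hne : E.Nonempty) (hs : E ⊆ ball ctr (1 / 4)) (h : Out E f ζ σ) :
    ∃ (Ψ φ : ℂ → ℂ) (F V : Set ℂ), Sq F V φ ∧ Glob E Ψ (φ '' F) := by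
  have hW := end_of_out hE hne hs h
  obtain ⟨F, hF⟩ : ∃ F, F = ⋃ c, sqr (ζ c) (σ c) := ⟨_, rfl⟩
  have hc := cpt_of_out hE.cpt hs h (s := 1 / 3) (by norm_num) (by norm_num)
  rw [← hF] at hW hc
  have hnE : ∀ u : ℂ, 1 / 4 < ‖u‖ → ctr + u ∉ E := fun u hu k => by
    have h1 := hs k
    rw [mem_ball, dist_eq_norm, add_sub_cancel_left] at h1
    exact lt_asymm hu h1
  obtain ⟨φ, ψ, h1, h2, h3, h4, h5, h6, h7, h8⟩ := hW.weld (hc.isBounded.subset (by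
    rintro _ ((hw | ⟨z, hz, rfl⟩) | ⟨u, hu, rfl⟩)
    · exact Or.inl hw
    · exact Or.inr ⟨z, ⟨closedBall_subset_closedBall (by norm_num) hz.1, hz.2⟩, rfl⟩
    · refine Or.inr ⟨ctr + u, ⟨?_, hnE u hu.1⟩, rfl⟩
      rw [mem_closedBall, dist_eq_norm, add_sub_cancel_left]
      exact hu.2.le))
  obtain ⟨K, hK⟩ : ∃ K, K = F ∪ f '' (closedBall ctr (1 / 4) \ E) := ⟨_, rfl⟩
  rw [← hK] at hW h1 h2 h6 h8
  have m1 : ∀ z ∉ E, ‖z - ctr‖ ≤ 1 / 4 → f z ∈ K := fun z hz k =>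
    hK ▸ Or.inr ⟨z, ⟨mem_closedBall_iff_norm.2 k, hz⟩, rfl⟩
  have m2 : ∀ z ∉ E, ‖z - ctr‖ < 1 / 3 →
      f z ∈ K ∪ (fun z => f (ctr + z)) '' W.An (1 / 4) (1 / 3) := fun z hz k => by
    rcases le_or_gt ‖z - ctr‖ (1 / 4) with k1 | k1
    · exact Or.inl (m1 z hz k1)
    · exact Or.inr ⟨z - ctr, ⟨k1, k⟩, by simp only [add_sub_cancel]⟩
  have mF : F ⊆ K := hK ▸ subset_union_left
  have mQ : ∀ z ∉ E, ‖z - ctr‖ < 1 / 3 → z ∈ Q \ E := fun z hz k =>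
    ⟨ball_Q_glue3 (by linarith), hz⟩
  obtain ⟨Ψ, hΨ⟩ : ∃ Ψ : ℂ → ℂ, Ψ = fun z => if ‖z - ctr‖ < 1 / 3 then φ (f z) else ψ (z - ctr) :=
    ⟨_, rfl⟩
  have e1 : ∀ z, ‖z - ctr‖ < 1 / 3 → Ψ z = φ (f z) := fun z hz => by simp only [hΨ, if_pos hz]
  have e2 : ∀ z, 1 / 4 < ‖z - ctr‖ → Ψ z = ψ (z - ctr) := fun z hz => by
    by_cases k : ‖z - ctr‖ < 1 / 3
    · rw [e1 z k, h5 ⟨hz, k⟩]
      simp only [Function.comp_apply, add_sub_cancel]
    · simp only [hΨ, if_neg k]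
  have e3 : ∀ z, ‖z - ctr‖ ≤ 1 / 4 → ‖z - ctr‖ < 1 / 3 := fun z hz => by linarith
  have hn : Continuous fun z : ℂ => ‖z - ctr‖ := by fun_prop
  refine ⟨Ψ, φ, F, _, ⟨hF ▸ h.cpt, hW.op _ hW.lt le_rfl, mF.trans subset_union_left, h1, h2,
    fun y hy => ?_⟩, fun z hz => ?_, fun z hz z' hz' he => ?_, ?_, ?_⟩
  · rw [hF] at hy ⊢
    obtain ⟨c, hc⟩ := mem_iUnion.1 hy
    exact ⟨ζ c, σ c, h.nn c, h.cmp c y hc⟩
  · refine DifferentiableAt.differentiableWithinAt ?_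
    by_cases k : ‖z - ctr‖ < 1 / 3
    · have a1 : DifferentiableOn ℂ Ψ ({z | ‖z - ctr‖ < 1 / 3} ∩ Eᶜ) :=
        (h1.comp (h.hol.mono fun x hx => mQ x hx.2 hx.1) fun x hx => m2 x hx.2 hx.1).congr
          fun x hx => e1 x hx.1
      exact a1.differentiableAt
        (((isOpen_lt hn continuous_const).inter hE.cpt.isClosed.isOpen_compl).mem_nhds ⟨k, hz⟩)
    · have a1 : DifferentiableOn ℂ Ψ {z | 1 / 4 < ‖z - ctr‖} :=
        (h3.comp (f := fun z => z - ctr) (by fun_prop) fun x hx => hx).congr fun x hx => e2 x hx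
      exact a1.differentiableAt ((isOpen_lt continuous_const hn).mem_nhds
        (show 1 / 4 < ‖z - ctr‖ by linarith [not_lt.1 k]))
  · rcases le_or_gt ‖z - ctr‖ (1 / 4) with a1 | a1 <;>
      rcases le_or_gt ‖z' - ctr‖ (1 / 4) with a2 | a2
    · rw [e1 z (e3 z a1), e1 z' (e3 z' a2)] at he
      exact h.inj (mQ z hz (e3 z a1)) (mQ z' hz' (e3 z' a2))
        (h2 (Or.inl (m1 z hz a1)) (Or.inl (m1 z' hz' a2)) he)
    · rw [e1 z (e3 z a1), e2 z' a2] at he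
      exact (disjoint_left.1 h6 ⟨_, m1 z hz a1, rfl⟩ ⟨_, a2, he.symm⟩).elim
    · rw [e1 z' (e3 z' a2), e2 z a1] at he
      exact (disjoint_left.1 h6 ⟨_, m1 z' hz' a2, rfl⟩ ⟨_, a1, he⟩).elim
    · rw [e2 z a1, e2 z' a2] at he
      exact sub_left_injective (h4 a1 a2 he)
  · apply Subset.antisymm
    · rintro _ ⟨z, hz, rfl⟩ ⟨y, hy, he⟩
      rcases le_or_gt ‖z - ctr‖ (1 / 4) with a1 | a1
      · rw [e1 z (e3 z a1)] at he
        have a2 := h2 (Or.inl (mF hy)) (Or.inl (m1 z hz a1)) he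
        rw [hF, a2] at hy
        obtain ⟨c, hc⟩ := mem_iUnion.1 hy
        exact disjoint_left.1 (h.off c) ⟨z, mQ z hz (e3 z a1), rfl⟩ hc
      · rw [e2 z a1] at he
        exact disjoint_left.1 h6 ⟨y, mF hy, rfl⟩ ⟨_, a1, he.symm⟩
    · intro w hw
      rcases (h8 ▸ mem_univ w : w ∈ φ '' K ∪ ψ '' {z | 1 / 4 < ‖z‖}) with ⟨y, hy, rfl⟩ | ⟨u, hu, rfl⟩
      · rw [hK] at hy
        rcases hy with hy | ⟨z, hz, rfl⟩
        · exact (hw ⟨y, hy, rfl⟩).elim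
        · exact ⟨z, hz.2, e1 z (e3 z (mem_closedBall_iff_norm.1 hz.1))⟩
      · refine ⟨ctr + u, hnE u hu, ?_⟩
        rw [e2 _ (by rwa [add_sub_cancel_left]), add_sub_cancel_left]
  · have a1 : Tendsto (fun z : ℂ => z - ctr) (cocompact ℂ) (cocompact ℂ) :=
      (Homeomorph.subRight ctr).isClosedEmbedding.tendsto_cocompact
    have a2 : ∀ᶠ z in cocompact ℂ, 1 / 4 < ‖z - ctr‖ :=
      a1.eventually ((tendsto_norm_cocompact_atTop (E := ℂ)).eventually_gt_atTop _)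
    exact (h7.comp a1).congr' (a2.mono fun z hz => (e2 z hz).symm)

theorem Glob.comp {E X Y : Set ℂ} {g k : ℂ → ℂ} (h1 : Glob E g X) (h2 : Glob X k Y) :
    Glob E (k ∘ g) Y := by
  have hm : MapsTo g Eᶜ Xᶜ := fun z hz => h1.img ▸ mem_image_of_mem g hz
  exact ⟨h2.hol.comp h1.hol hm, h2.inj.comp h1.inj hm, by rw [image_comp, h1.img, h2.img],
    h2.inf.comp h1.inf⟩

theorem Glob.con {E X : Set ℂ} {g : ℂ → ℂ} (h : Glob E g X) (hc : IsPreconnected Eᶜ) :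
    IsPreconnected Xᶜ := by
  rw [← h.img]
  exact hc.image _ h.hol.continuousOn

end Vale.Agent.P116
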