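import Vale.Agent.P116.T.Red2
import Vale.Agent.P116.T.Glue3
import Vale.Agent.P116.S.Main

/-! P116 T/Top: assembly, given steps (1) to (4) and the limit theorem. -/

open Metric Set Filter Function Topology Complex

noncomputable section

namespace Vale.Agent.P116

/-- The output of steps (1) to (4). -/
def SeqEx : Prop := ∀ E : Set ℂ, Dom E → E.Nonempty → ∃ μ s w, Seq E μ s w

theorem planarB (hS : SeqEx) {E : Set ℂ} (hE : IsCompact E) (hs : E ⊆ ball ctr (1 / 4))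
    (hc : IsPreconnected Eᶜ) : ∃ (Ψ φ : ℂ → ℂ) (F V : Set ℂ), Sq F V φ ∧ Glob E Ψ (φ '' F) := by
  rcases E.eq_empty_or_nonempty with rfl | hne
  · exact ⟨id, id, ∅, univ, ⟨isCompact_empty, isOpen_univ, empty_subset _, differentiableOn_id,
      injOn_id _, fun y hy => hy.elim⟩, differentiableOn_id, injOn_id _, by simp, tendsto_id⟩
  · have hD := dom_of hE hs hc
    obtain ⟨μ, s, w, h⟩ := hS E hD hne
    obtain ⟨f, ζ, σ, ho⟩ := step5 hD h
    exact glob_of_out hD hne hs ho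

open T in
theorem thmB (hS : SeqEx) {G : Set (OnePoint ℂ)} (hG : IsDomain G) :
    ∃ (F V : Set ℂ) (φ : ℂ → ℂ), Sq F V φ ∧
      ConfEq G ((fun z : ℂ => (z : OnePoint ℂ)) '' (φ '' F))ᶜ := by
  obtain ⟨a, l, E, hl, hE, hs, hc, hb, hm⟩ := reduce hG
  obtain ⟨Ψ, φ, F, V, h1, h2⟩ := planarB hS hE hs hc
  exact ⟨F, V, φ, h1, confEq_of hl hE hb hm h2⟩

end Vale.Agent.P116
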