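import Vale.Agent.P116.T.Pl
import Vale.Agent.P116.S.Sep
import Vale.Agent.P116.S.Bas

/-! P116 T/Lift: lifting a cut-off function through a univalent map. -/

open Metric Set Filter Function Topology Complex

noncomputable section

namespace Vale.Agent.P116

/-- `H = exp (2 π i χ ∘ f⁻¹)` on `f '' O`, `1` elsewhere, is continuous on `ℂ` (it is `1` off the
compact set `f '' C`; `W.open_image`, `W.inv_hol`), so `H = exp (2 π i Λ)` with `Λ` continuous
(`Complex.exists_continuousOn_eqOn_exp_comp` on `univ`). `Λ ∘ f - χ` is continuous and integer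
valued on `O`, hence constant; subtract the constant. -/
theorem lift_cut {O C : Set ℂ} {f : ℂ → ℂ} {χ : ℂ → ℝ} (hO : IsOpen O) (hc : IsPreconnected O)
    (hd : DifferentiableOn ℂ f O) (hi : InjOn f O) (hC : IsCompact C) (hCO : C ⊆ O)
    (hχ : ContinuousOn χ O) (h01 : ∀ z ∈ O \ C, χ z = 0 ∨ χ z = 1) :
    ∃ Λ : ℂ → ℝ, Continuous Λ ∧ (∀ z ∈ O, Λ (f z) = χ z) ∧ ∀ w ∉ f '' O, ∃ n : ℤ, Λ w = n := by
  classical
  have hf := hd.continuousOn
  have ho : ∀ V, IsOpen V → V ⊆ O → IsOpen (f '' V) := fun V h1 h2 => W.open_image hO hd hi h1 h2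
  rcases O.eq_empty_or_nonempty with rfl | ⟨z₀, hz₀⟩
  · exact ⟨fun _ => 0, continuous_const, fun z hz => hz.elim, fun _ _ => ⟨0, by simp⟩⟩
  obtain ⟨k, hk⟩ : ∃ k : ℂ → ℂ, ∀ y, k y = if y ∈ f '' O then
    exp (χ (Function.invFunOn f O y) * (2 * Real.pi * I)) else 1 := ⟨_, fun _ => rfl⟩
  have k1 : ∀ z ∈ O, k (f z) = exp (χ z * (2 * Real.pi * I)) := fun z hz => by
    rw [hk, if_pos (mem_image_of_mem f hz), hi.leftInvOn_invFunOn hz]
  have k2 : ∀ y, y ∉ f '' C → k y = 1 := fun y hy => by
    by_cases h : y ∈ f '' O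
    · obtain ⟨z, hz, rfl⟩ := h
      rw [k1 z hz]
      rcases h01 z ⟨hz, fun h2 => hy (mem_image_of_mem f h2)⟩ with h2 | h2
      · simp [h2]
      · simp [h2]
    · rw [hk, if_neg h]
  have hcl : IsClosed (f '' C) := (hC.image_of_continuousOn (hf.mono hCO)).isClosed
  have k3 : Continuous k := by
    refine continuous_iff_continuousAt.2 fun y => ?_
    by_cases h : y ∈ f '' C
    · have h2 : ContinuousOn (fun y => χ (Function.invFunOn f O y)) (f '' O) :=
        hχ.comp (inv_Sep hO hi ho) fun y hy => Function.invFunOn_mem hy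
      have h3 : ContinuousOn k (f '' O) :=
        ((continuous_ofReal.comp_continuousOn h2).mul continuousOn_const).cexp.congr
          fun y hy => by rw [hk, if_pos hy]; rfl
      exact h3.continuousAt ((ho O hO Subset.rfl).mem_nhds (image_mono hCO h))
    · exact (continuousAt_const (y := (1 : ℂ))).congr
        (mem_of_superset (hcl.isOpen_compl.mem_nhds h) fun y hy => (k2 y hy).symm)
  have k4 : (0 : ℂ) ∉ k '' univ := by
    rintro ⟨y, -, hy⟩
    rw [hk] at hy
    split_ifs at hy
    · exact exp_ne_zero _ hy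
    · exact one_ne_zero hy
  have hu : IsSimplyConnected (univ : Set ℂ) := by
    have := (convex_univ (𝕜 := ℝ) (E := ℂ)).contractibleSpace univ_nonempty
    exact SimplyConnectedSpace.ofContractible _
  obtain ⟨L, hL, hLk⟩ := exists_continuousOn_eqOn_exp_comp hu isOpen_univ k3.continuousOn k4
  have l1 : Continuous fun y => (L y).im / (2 * Real.pi) :=
    (continuous_im.comp (continuousOn_univ.1 hL)).div_const _
  have l2 := const_of_int hc ((l1.comp_continuousOn hf).sub hχ) fun z hz =>
    im_Sep ((hLk (mem_univ _)).trans (k1 z hz))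
  refine ⟨fun y => (L y).im / (2 * Real.pi) - ((L (f z₀)).im / (2 * Real.pi) - χ z₀),
    l1.sub continuous_const, fun z hz => ?_, fun w hw => ?_⟩
  · have h2 : (L (f z)).im / (2 * Real.pi) - χ z = (L (f z₀)).im / (2 * Real.pi) - χ z₀ :=
      l2 z hz z₀ hz₀
    linarith
  · obtain ⟨j, hj⟩ := im_Sep (x := L w) (a := 0) (by
      rw [ofReal_zero, zero_mul, exp_zero]
      exact (hLk (mem_univ _)).trans (k2 w fun h => hw (image_mono hCO h)))
    obtain ⟨j', hj'⟩ := im_Sep ((hLk (mem_univ _)).trans (k1 z₀ hz₀))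
    refine ⟨j - j', ?_⟩
    rw [Int.cast_sub, ← hj, ← hj', sub_zero]

/-- A point of the component with maximal real part (the component is compact) is not interior to
`E`, since a ball inside `E` would lie in the component. -/
theorem comp_clo {E : Set ℂ} (hE : IsCompact E) {z : ℂ} (hz : z ∈ E) :
    ∃ p ∈ connectedComponentIn E z, p ∈ closure Eᶜ := by
  obtain ⟨p, hp, hm⟩ := ((Cp.mk z hz).cpt hE).exists_isMaxOn ⟨z, Cp.mem_mk z hz⟩
    continuous_re.continuousOn
  refine ⟨p, hp, ?_⟩
  rw [closure_compl]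
  intro h
  obtain ⟨r, hr, hb⟩ := Metric.mem_nhds_iff.1 (mem_interior_iff_mem_nhds.1 h)
  have h1 := (convex_ball p r).isPreconnected.subset_connectedComponentIn (mem_ball_self hr) hb
  have h2 : connectedComponentIn E z = connectedComponentIn E p := connectedComponentIn_eq hp
  have h3 : p + (r / 2 : ℝ) ∈ ball p r := by
    rw [mem_ball, dist_self_add_left, norm_real, Real.norm_of_nonneg (by linarith)]
    linarith
  have h4 : (p + (r / 2 : ℝ)).re ≤ p.re := hm (h2 ▸ h1 h3 : _ ∈ connectedComponentIn E z)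
  rw [add_re, ofReal_re] at h4
  linarith

end Vale.Agent.P116
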