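import Vale.Agent.P116.T.Pl
import Vale.Agent.P116.W.Inf

/-! P116 T/Cpt: the complement of the image is compact. -/

open Metric Set Filter Function Topology Complex

noncomputable section

namespace Vale.Agent.P116

theorem Glob.cpt {E X : Set ℂ} {g : ℂ → ℂ} (h : Glob E g X) (hE : IsCompact E) : IsCompact X := by
  have ho : IsOpen Xᶜ := h.img ▸ W.open_image hE.isClosed.isOpen_compl h.hol h.inj
    hE.isClosed.isOpen_compl Subset.rfl
  refine Metric.isCompact_of_isClosed_isBounded (isOpen_compl_iff.1 ho) ?_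
  have h1 : ∀ᶠ z in cocompact ℂ, z ∈ Eᶜ ∧ g z ∈ (closedBall (0 : ℂ) 1)ᶜ :=
    Filter.Eventually.and hE.compl_mem_cocompact (h.inf (isCompact_closedBall 0 1).compl_mem_cocompact)
  obtain ⟨C, hC, hCs⟩ := mem_cocompact.1 h1
  obtain ⟨m, hm0, hm⟩ := hC.isBounded.subset_closedBall_lt 0 0
  have k : ∀ z : ℂ, m < ‖z‖ → z ∈ Eᶜ ∧ 1 < ‖g z‖ := fun z hz => by
    have := hCs (show z ∈ Cᶜ from fun hz' => by
      have := mem_closedBall_zero_iff.1 (hm hz')
      linarith)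
    exact ⟨this.1, not_le.1 fun e => this.2 (mem_closedBall_zero_iff.2 e)⟩
  have k0 : ∀ z : ℂ, m < ‖z‖ → g z ≠ 0 := fun z hz e => by
    have := (k z hz).2
    rw [e, norm_zero] at this
    linarith
  obtain ⟨β, b1, -, b3⟩ := W.at_inf (ψ := fun z => (g z)⁻¹) hm0
    ((h.hol.mono fun z hz => (k z hz).1).inv k0)
    (fun z hz => by rw [norm_inv]; exact inv_le_one_of_one_le₀ (k z hz).2.le)
    fun z hz w hw e => h.inj (k z hz).1 (k w hw).1 (inv_injective e)
  have b0 : Tendsto (fun z => (g z)⁻¹) (cocompact ℂ) (𝓝 0) := by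
    have := h.inf
    rw [← Metric.cobounded_eq_cocompact] at this ⊢
    exact (tendsto_inv₀_cobounded (α := ℂ)).comp this
  obtain rfl : β = 0 := tendsto_nhds_unique b1 b0
  obtain ⟨δ, hδ, hb⟩ := Metric.mem_nhdsWithin_iff.1 (b3 0)
  refine (isBounded_closedBall (x := (0 : ℂ)) (r := δ⁻¹)).subset fun y hy => ?_
  by_contra hc
  have hy1 : δ⁻¹ < ‖y‖ := not_le.1 fun e => hc (mem_closedBall_zero_iff.2 e)
  have hy0 : y ≠ 0 := norm_pos_iff.1 ((inv_pos.2 hδ).trans hy1)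
  obtain ⟨z, hz, e⟩ := hb (a := y⁻¹) ⟨by
    rw [mem_ball_zero_iff, norm_inv]
    exact inv_lt_of_inv_lt₀ hδ hy1, inv_ne_zero hy0⟩
  have : y ∈ Xᶜ := h.img ▸ ⟨z, (k z ((le_max_left _ _).trans_lt hz)).1, inv_injective e⟩
  exact this hy

end Vale.Agent.P116
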