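import Vale.Agent.P116.T.Top
import Vale.Agent.P116.K.G74
import Vale.Agent.P116.K.B25b
import Vale.Agent.P116.K.Ax26B
import Vale.Agent.P116.K.Rf

/-! P116 T/Fin (helper74): steps (1) to (4) assembled. -/

open MeasureTheory Set

noncomputable section

namespace Vale.Agent.P116

open K

theorem sys_one74 (P : Par) : P.Sys (Finsupp.single ∅ 1) := by
  refine ⟨fun Z => ?_, Finsupp.sum_single_index rfl, fun Z hZ => ?_⟩
  · rcases Finsupp.single_apply_mem (a := (∅ : Set ℂ)) (b := (1 : ℝ)) Z with h | h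
    · exact h.ge
    · exact zero_le_one.trans (mem_singleton_iff.1 h).ge
  · rw [Finset.mem_singleton.1 (Finsupp.support_single_subset hZ)]
    exact ⟨∅, by simp, by simp⟩

theorem seqEx : SeqEx := fun _ hE hne => by
  refine seq74 (fun P A hA c hc h => P.base25 hA hc h) (fun P A hA c hc h b hb η hη => ?_) hE hne
  have k : ∀ θ c', P.Sys θ → 0 ≤ c' → P.Bs A θ c' → P.BV A θ c' :=
    fun θ c' h1 _ h2 b hb g lam ht ν hν => bs_charge26 hA h1 h2 hb ht ν
  exact Par.exists_pls (sys_one74 P) hc.le (k _ _ (sys_one74 P) hc.le h) k hb hη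

end Vale.Agent.P116
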