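import Vale.Agent.P116.T.Pl

/-! P116 T/Glue: from the local output of step (5) to a global map. -/

open Metric Set Filter Function Topology Complex

noncomputable section

namespace Vale.Agent.P116

/-- The centre of the unit square. -/
def ctr : ℂ := ⟨1 / 2, 1 / 2⟩

theorem coord_glue {z : ℂ} {s : ℝ} (h : dist z ctr < s) :
    (1 / 2 - s < z.re ∧ z.re < 1 / 2 + s) ∧ (1 / 2 - s < z.im ∧ z.im < 1 / 2 + s) := by
  rw [dist_eq_norm] at h
  have h1 := abs_lt.1 ((abs_re_le_norm (z - ctr)).trans_lt h)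
  have h2 := abs_lt.1 ((abs_im_le_norm (z - ctr)).trans_lt h)
  simp only [ctr, sub_re, sub_im] at h1 h2
  exact ⟨⟨by linarith [h1.1], by linarith [h1.2]⟩, by linarith [h2.1], by linarith [h2.2]⟩

theorem ball_glue : ball ctr (1 / 2) ⊆ Q := fun z hz => by
  obtain ⟨⟨h1, h2⟩, h3, h4⟩ := coord_glue (mem_ball.1 hz)
  exact ⟨⟨by linarith, by linarith⟩, by linarith, by linarith⟩

/-- The projection to the interval. -/
def clamp_glue (δ x : ℝ) : ℝ := max δ (min x (1 - δ))

theorem clamp_mem_glue {δ : ℝ} (h0 : 0 < δ) (h1 : δ ≤ 1 / 4) (x : ℝ) :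
    clamp_glue δ x ∈ Ioo (0 : ℝ) 1 :=
  ⟨h0.trans_le (le_max_left _ _), max_lt (by linarith) ((min_le_right _ _).trans_lt (by linarith))⟩

theorem clamp_eq_glue {δ x : ℝ} (h0 : δ ≤ x) (h1 : x ≤ 1 - δ) : clamp_glue δ x = x := by
  rw [clamp_glue, min_eq_left h1, max_eq_right h0]

theorem clamp_inv_glue {δ x : ℝ} (h : δ ≤ 1 / 4) (h0 : 1 / 4 < clamp_glue δ x)
    (h1 : clamp_glue δ x < 3 / 4) : clamp_glue δ x = x := by
  rw [clamp_glue] at h0 h1
  have h2 : 1 / 4 < min x (1 - δ) := (lt_max_iff.1 h0).resolve_left (by linarith)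
  have h3 : x < 3 / 4 := (min_lt_iff.1 (max_lt_iff.1 h1).2).resolve_right (by linarith)
  exact clamp_eq_glue (by linarith [(lt_min_iff.1 h2).1]) (by linarith)

theorem cpt_glue {S T : Set ℂ} (hS : IsCompact S) (hST : S ⊆ T)
    (h : ∀ V, IsOpen V → S ⊆ V → ∃ K, IsCompact K ∧ K ⊆ T ∧ T ⊆ V ∪ K) : IsCompact T := by
  classical
  refine isCompact_of_finite_subcover fun U hU hT => ?_
  obtain ⟨t, ht⟩ := hS.elim_finite_subcover U hU (hST.trans hT)
  obtain ⟨K, hK, hKT, hTK⟩ := h _ (isOpen_biUnion fun i _ => hU i) ht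
  obtain ⟨t', ht'⟩ := hK.elim_finite_subcover U hU (hKT.trans hT)
  refine ⟨t ∪ t', hTK.trans ?_⟩
  rw [Finset.set_biUnion_union]
  exact union_subset_union_right _ ht'

/-- `Q \ E` is preconnected: it is the union of the frame `Q \ closedBall ctr (1 / 4)` (image of a
product under polar coordinates, or star-shaped rays) and of pieces that meet it; e.g. if open
`u, v` split `Q \ E` and the frame lies in `u`, then `u ∪ (closedBall ctr (1 / 4))ᶜ` and
`v ∩ (Q \ E) ⊆ closedBall ctr (1 / 4)` split `Eᶜ`. -/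
theorem dom_of {E : Set ℂ} (hE : IsCompact E) (hs : E ⊆ ball ctr (1 / 4))
    (hc : IsPreconnected Eᶜ) : Dom E := by
  refine ⟨hE, hs.trans ((ball_subset_ball (by norm_num)).trans ball_glue), ?_⟩
  have hx : (⟨1 / 4, 1 / 4⟩ : ℂ) ∉ E := fun h => by
    have h1 := (coord_glue (mem_ball.1 (hs h))).1.1
    norm_num at h1
  refine isPreconnected_of_forall (⟨1 / 4, 1 / 4⟩ : ℂ) fun y hy => ?_
  obtain ⟨⟨⟨a1, a2⟩, a3, a4⟩, hyE⟩ := hy
  obtain ⟨δ, h0, h1, h2, h3, h4, h5⟩ : ∃ δ : ℝ, 0 < δ ∧ δ ≤ 1 / 4 ∧ δ ≤ y.re ∧ δ ≤ 1 - y.re ∧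
      δ ≤ y.im ∧ δ ≤ 1 - y.im :=
    ⟨min (1 / 4) (min (min y.re (1 - y.re)) (min y.im (1 - y.im))),
      lt_min (by norm_num) (lt_min (lt_min a1 (by linarith)) (lt_min a3 (by linarith))),
      min_le_left _ _, (min_le_right _ _).trans ((min_le_left _ _).trans (min_le_left _ _)),
      (min_le_right _ _).trans ((min_le_left _ _).trans (min_le_right _ _)),
      (min_le_right _ _).trans ((min_le_right _ _).trans (min_le_left _ _)),
      (min_le_right _ _).trans ((min_le_right _ _).trans (min_le_right _ _))⟩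
  let r : ℂ → ℂ := fun z => (clamp_glue δ z.re : ℂ) + (clamp_glue δ z.im : ℂ) * I
  have hre : ∀ z, (r z).re = clamp_glue δ z.re := fun z => by simp [r]
  have him : ∀ z, (r z).im = clamp_glue δ z.im := fun z => by simp [r]
  have hr : Continuous r := by
    simp only [r, clamp_glue]
    fun_prop
  refine ⟨r '' Eᶜ, ?_, ⟨_, hx, Complex.ext ?_ ?_⟩, ⟨y, hyE, Complex.ext ?_ ?_⟩,
    hc.image r hr.continuousOn⟩
  · rintro _ ⟨z, hz, rfl⟩
    refine ⟨⟨?_, ?_⟩, fun hE' => hz ?_⟩
    · rw [mem_preimage, hre]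
      exact clamp_mem_glue h0 h1 _
    · rw [mem_preimage, him]
      exact clamp_mem_glue h0 h1 _
    · obtain ⟨⟨b1, b2⟩, b3, b4⟩ := coord_glue (mem_ball.1 (hs hE'))
      rw [hre] at b1 b2
      rw [him] at b3 b4
      have e : r z = z := Complex.ext
        ((hre z).trans (clamp_inv_glue h1 (by linarith) (by linarith)))
        ((him z).trans (clamp_inv_glue h1 (by linarith) (by linarith)))
      rwa [e] at hE'
  · exact (hre _).trans (clamp_eq_glue h1 (by linarith))
  · exact (him _).trans (clamp_eq_glue h1 (by linarith))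
  · exact (hre _).trans (clamp_eq_glue h2 (by linarith))
  · exact (him _).trans (clamp_eq_glue h4 (by linarith))

/-- Sequential compactness: if `z n → z` in the closed ball, either `z ∉ E` (continuity) or `z ∈ E`,
and then by `Out.clu` every limit point of `f (z n)` lies in the closed square of the component of
`z`; `f (z n)` is eventually in the bounded set `thickening 1` of that square. -/
theorem cpt_of_out {E : Set ℂ} {f : ℂ → ℂ} {ζ : Cp E → ℂ} {σ : Cp E → ℝ} (hE : IsCompact E)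
    (hs : E ⊆ ball ctr (1 / 4)) (h : Out E f ζ σ) {s : ℝ} (h1 : 1 / 4 ≤ s) (h2 : s < 1 / 2) :
    IsCompact ((⋃ c, sqr (ζ c) (σ c)) ∪ f '' (closedBall ctr s \ E)) := by
  refine cpt_glue h.cpt subset_union_left fun V hV hSV => ?_
  choose U hU hcU hfU using fun c : Cp E =>
    h.clu c V hV ((subset_iUnion (fun c => sqr (ζ c) (σ c)) c).trans hSV)
  have hEU : E ⊆ ⋃ c, U c := fun z hz =>
    mem_iUnion.2 ⟨Cp.mk z hz, hcU _ (mem_connectedComponentIn hz)⟩
  have hK : IsCompact (closedBall ctr s \ ⋃ c, U c) :=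
    (isCompact_closedBall ctr s).diff (isOpen_iUnion hU)
  have hsub : closedBall ctr s \ ⋃ c, U c ⊆ closedBall ctr s \ E := diff_subset_diff_right hEU
  have hQ : closedBall ctr s \ E ⊆ Q \ E :=
    diff_subset_diff_left ((closedBall_subset_ball h2).trans ball_glue)
  refine ⟨_, hK.image_of_continuousOn (h.hol.continuousOn.mono (hsub.trans hQ)),
    (image_mono hsub).trans subset_union_right, union_subset (hSV.trans subset_union_left) ?_⟩
  rintro _ ⟨z, hz, rfl⟩
  by_cases hzU : z ∈ ⋃ c, U c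
  · obtain ⟨c, hc⟩ := mem_iUnion.1 hzU
    exact Or.inl (hfU c ⟨z, ⟨hc, hz.2⟩, rfl⟩)
  · exact Or.inr ⟨z, ⟨hz.1, hzU⟩, rfl⟩

end Vale.Agent.P116
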