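import Vale.Agent.P116.T.Glue
import Vale.Agent.P116.T.Lift
import Vale.Agent.P116.S.Sat
import Vale.Agent.P116.S.Rect

/-! P116 T/Glue2: the collar around the squares. -/

open Metric Set Filter Function Topology Complex

noncomputable section

namespace Vale.Agent.P116

theorem ball_Q_Glue2 : ball ctr (1 / 2) ⊆ Q := by
  intro z hz
  rw [mem_ball, dist_eq_norm] at hz
  have h1 := abs_lt.1 ((abs_re_le_norm (z - ctr)).trans_lt hz)
  have h2 := abs_lt.1 ((abs_im_le_norm (z - ctr)).trans_lt hz)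
  simp only [ctr, sub_re, sub_im] at h1 h2
  exact mem_reProdIm.2 ⟨⟨by linarith [h1.1], by linarith [h1.2]⟩, by linarith [h2.1],
    by linarith [h2.2]⟩

theorem meet_Glue2 {E : Set ℂ} {f : ℂ → ℂ} {ζ : Cp E → ℂ} {σ : Cp E → ℝ} (hE : Dom E)
    (h : Out E f ζ σ) (c : Cp E) {U : Set ℂ} (hU : IsOpen U) (hc : c.1 ⊆ U) :
    (closure (f '' ((U ∩ Q) \ E)) ∩ sqr (ζ c) (σ c)).Nonempty := by
  by_contra hn
  obtain ⟨U', h1, h2, h3⟩ := h.clu c _ isClosed_closure.isOpen_compl fun y hy hy' => hn ⟨y, hy', hy⟩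
  obtain ⟨z, ⟨⟨h4, h5⟩, h6⟩, h7⟩ := c.meets hE (hU.inter h1) (subset_inter hc h2)
  exact h3 ⟨z, ⟨h5, h7⟩, rfl⟩ (subset_closure ⟨z, ⟨⟨h4, h6⟩, h7⟩, rfl⟩)

/-- `lift_cut` with `χ = 1` on `ball ctr s`, `0` off `ball ctr s'`, `E ⊆ ball ctr s`, `s < s' < t`.
`Λ` is integer valued, so constant, on each square, and equal to `1` there (`comp_clo`, `Out.clu`,
a limit point of `f (z n)`). Near `y ∈ F`, `Λ > 1 / 2` and `Out.op` applies. -/
theorem open_of_out {E : Set ℂ} {f : ℂ → ℂ} {ζ : Cp E → ℂ} {σ : Cp E → ℝ} (hE : Dom E)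
    (hs : E ⊆ ball ctr (1 / 4)) (h : Out E f ζ σ) {t : ℝ} (h1 : 1 / 4 ≤ t) (h2 : t ≤ 1 / 2) :
    IsOpen ((⋃ c, sqr (ζ c) (σ c)) ∪ f '' (ball ctr t \ E)) := by
  obtain ⟨s, s1, s2⟩ := exists_lt_subset_ball hE.cpt.isClosed hs
  obtain ⟨χ, χ0, χ1, -⟩ := exists_continuous_zero_one_of_isClosed
    (isOpen_ball (x := ctr) (ε := 1 / 4)).isClosed_compl (isClosed_closedBall (x := ctr) (ε := s))
    (Set.disjoint_left.2 fun z hz hz' => hz (closedBall_subset_ball s1 hz'))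
  obtain ⟨Λ, Λc, Λf, ΛZ⟩ := lift_cut (C := closedBall ctr (1 / 4) \ ball ctr s) (χ := χ) hE.op
    hE.con h.hol h.inj ((isCompact_closedBall _ _).diff isOpen_ball)
    (fun z hz => ⟨ball_Q_Glue2 (closedBall_subset_ball (by norm_num) hz.1), fun k => hz.2 (s2 k)⟩)
    χ.continuous.continuousOn fun z hz => by
      by_cases h4 : z ∈ ball ctr s
      · exact Or.inr (χ1 (ball_subset_closedBall h4))
      · exact Or.inl (χ0 fun h5 => hz.2 ⟨ball_subset_closedBall h5, h4⟩)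
  have key : ∀ c, ∀ y ∈ sqr (ζ c) (σ c), 1 / 2 < Λ y := fun c y hy => by
    obtain ⟨y₀, h4, h5⟩ := meet_Glue2 hE h c isOpen_ball (c.sub.trans s2)
    have h6 : Λ y₀ = 1 := by
      refine closure_minimal (t := {y | Λ y = 1}) ?_ (isClosed_eq Λc continuous_const) h4
      rintro _ ⟨z, hz, rfl⟩
      exact (Λf z ⟨hz.1.2, hz.2⟩).trans (χ1 (ball_subset_closedBall hz.1.1))
    by_contra hn
    obtain ⟨x, hx, h7⟩ := (cvx_Icc _ _ _ _).isPreconnected.intermediate_value hy h5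
      Λc.continuousOn (show (1 / 2 : ℝ) ∈ Icc (Λ y) (Λ y₀) from
        ⟨not_lt.1 hn, by rw [h6]; norm_num⟩)
    obtain ⟨n, h8⟩ := ΛZ x fun k => Set.disjoint_left.1 (h.off c) k hx
    have h9 : (2 * n : ℝ) = 1 := by
      rw [← h8, h7]
      norm_num
    have h10 : 2 * n = 1 := by exact_mod_cast h9
    omega
  have e : (⋃ c, sqr (ζ c) (σ c)) ∪ f '' (ball ctr t \ E) = f '' (ball ctr t \ E) ∪
      ({y | 1 / 2 < Λ y} ∩ (f '' (Q \ E) ∪ ⋃ c, sqr (ζ c) (σ c))) := by
    ext y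
    constructor
    · rintro (hy | hy)
      · obtain ⟨c, hc⟩ := mem_iUnion.1 hy
        exact Or.inr ⟨key c y hc, Or.inr hy⟩
      · exact Or.inl hy
    · rintro (hy | ⟨h3, ⟨z, hz, rfl⟩ | hy⟩)
      · exact Or.inr hy
      · refine Or.inr ⟨z, ⟨ball_subset_ball h1 (by_contra fun k => ?_), hz.2⟩, rfl⟩
        have h4 : Λ (f z) = 0 := (Λf z hz).trans (χ0 k)
        have h5 : 1 / 2 < Λ (f z) := h3
        rw [h4] at h5
        norm_num at h5
      · exact Or.inl hy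
  rw [e]
  exact (W.open_image hE.op h.hol h.inj (isOpen_ball.sdiff hE.cpt.isClosed)
    (sdiff_subset_sdiff_left ((ball_subset_ball h2).trans ball_Q_Glue2))).union
    ((isOpen_lt continuous_const Λc).inter h.op)

theorem tr_An_Glue2 (a t : ℝ) :
    (fun z => ctr + z) '' W.An a t = ball ctr t \ closedBall ctr a := by
  ext w
  constructor
  · rintro ⟨z, hz, rfl⟩
    refine ⟨?_, fun k => ?_⟩
    · rw [mem_ball, dist_self_add_left]
      exact hz.2
    · rw [mem_closedBall, dist_self_add_left] at k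
      exact absurd hz.1 (not_lt.2 k)
  · intro hw
    refine ⟨w - ctr, ⟨?_, ?_⟩, add_sub_cancel _ _⟩
    · rw [← dist_eq_norm]
      exact not_le.1 hw.2
    · rw [← dist_eq_norm]
      exact hw.1

theorem tr_Ac_Glue2 (a t : ℝ) :
    (fun z => ctr + z) '' W.Ac a t = closedBall ctr t \ closedBall ctr a := by
  ext w
  constructor
  · rintro ⟨z, hz, rfl⟩
    refine ⟨?_, fun k => ?_⟩
    · rw [mem_closedBall, dist_self_add_left]
      exact hz.2
    · rw [mem_closedBall, dist_self_add_left] at k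
      exact absurd hz.1 (not_lt.2 k)
  · intro hw
    refine ⟨w - ctr, ⟨?_, ?_⟩, add_sub_cancel _ _⟩
    · rw [← dist_eq_norm]
      exact not_le.1 hw.2
    · rw [← dist_eq_norm]
      exact hw.1

theorem un_Glue2 {E B D : Set ℂ} (h1 : E ⊆ B) (h2 : B ⊆ D) : (B \ E) ∪ (D \ B) = D \ E := by
  ext z
  constructor
  · rintro (hz | hz)
    · exact ⟨h2 hz.1, hz.2⟩
    · exact ⟨hz.1, fun k => hz.2 (h1 k)⟩
  · intro hz
    by_cases k : z ∈ B
    · exact Or.inl ⟨k, hz.2⟩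
    · exact Or.inr ⟨hz.1, k⟩

theorem con_Glue2 {E : Set ℂ} (hE : Dom E) (hs : E ⊆ closedBall ctr (1 / 4)) :
    IsPreconnected (ball ctr (1 / 3) \ E) := by
  have hA : IsPreconnected (ball ctr (1 / 3) \ closedBall ctr (1 / 4)) := by
    rw [← tr_An_Glue2]
    exact (W.An_con (by norm_num)).image _ (continuous_const.add continuous_id).continuousOn
  have hb : closedBall ctr (1 / 4) ⊆ ball ctr (1 / 3) := closedBall_subset_ball (by norm_num)
  have hQ : ball ctr (1 / 3) \ E ⊆ Q \ E :=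
    sdiff_subset_sdiff_left ((ball_subset_ball (by norm_num)).trans ball_Q_Glue2)
  have hm : ball ctr (1 / 3) \ closedBall ctr (1 / 4) ⊆ ball ctr (1 / 3) \ E :=
    sdiff_subset_sdiff_right hs
  have key : ∀ u v : Set ℂ, IsOpen u → IsOpen v → ball ctr (1 / 3) \ E ⊆ u ∪ v →
      (ball ctr (1 / 3) \ E) ∩ (u ∩ v) = ∅ → ball ctr (1 / 3) \ closedBall ctr (1 / 4) ⊆ u →
      ball ctr (1 / 3) \ E ⊆ u ∨ ball ctr (1 / 3) \ E ⊆ v := by
    intro u v hu hv h3 h4 h5
    have h6 : ∀ z ∈ ball ctr (1 / 3), z ∈ u ∪ (closedBall ctr (1 / 4))ᶜ → z ∈ u := by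
      rintro z hz (k | k)
      · exact k
      · exact h5 ⟨hz, k⟩
    refine (isPreconnected_iff_subset_of_disjoint.1 hE.con (u ∪ (closedBall ctr (1 / 4))ᶜ)
      (v ∩ ball ctr (1 / 3)) (hu.union isClosed_closedBall.isOpen_compl) (hv.inter isOpen_ball)
      ?_ ?_).imp ?_ ?_
    · intro z hz
      by_cases k : z ∈ closedBall ctr (1 / 4)
      · exact (h3 ⟨hb k, hz.2⟩).imp Or.inl fun k' => ⟨k', hb k⟩
      · exact Or.inl (Or.inr k)
    · refine eq_empty_of_forall_notMem fun z hz => ?_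
      exact (eq_empty_iff_forall_notMem.1 h4) z
        ⟨⟨hz.2.2.2, hz.1.2⟩, h6 z hz.2.2.2 hz.2.1, hz.2.2.1⟩
    · exact fun k z hz => h6 z hz.1 (k (hQ hz))
    · exact fun k z hz => (k (hQ hz)).1
  refine isPreconnected_iff_subset_of_disjoint.2 fun u v hu hv h3 h4 => ?_
  rcases isPreconnected_iff_subset_of_disjoint.1 hA u v hu hv (hm.trans h3)
    (eq_empty_of_subset_empty ((inter_subset_inter_left _ hm).trans h4.le)) with k | k
  · exact key u v hu hv h3 h4 k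
  · exact (key v u hv hu (union_comm u v ▸ h3) (inter_comm u v ▸ h4) k).symm

/-- `K ∪ e '' An a t = F ∪ f '' (ball ctr t \ E)`. Preconnected: `ball ctr t \ E` is preconnected
(as in `dom_of`), and every square is convex and meets the closure of `f '' (ball ctr t \ E)`. -/
theorem end_of_out {E : Set ℂ} {f : ℂ → ℂ} {ζ : Cp E → ℂ} {σ : Cp E → ℝ} (hE : Dom E)
    (hne : E.Nonempty) (hs : E ⊆ ball ctr (1 / 4)) (h : Out E f ζ σ) :
    W.End ((⋃ c, sqr (ζ c) (σ c)) ∪ f '' (closedBall ctr (1 / 4) \ E)) (fun z => f (ctr + z))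
      (1 / 4) (1 / 3) := by
  have hs' : E ⊆ closedBall ctr (1 / 4) := hs.trans ball_subset_closedBall
  have hQ : ball ctr (1 / 3) ⊆ Q := (ball_subset_ball (by norm_num)).trans ball_Q_Glue2
  have hb : closedBall ctr (1 / 4) ⊆ ball ctr (1 / 3) := closedBall_subset_ball (by norm_num)
  have hA : ball ctr (1 / 3) \ closedBall ctr (1 / 4) ⊆ Q \ E := sdiff_subset_sdiff hQ hs'
  have hm : MapsTo (fun z => ctr + z) (W.An (1 / 4) (1 / 3)) (Q \ E) := fun z hz =>
    hA (tr_An_Glue2 (1 / 4) (1 / 3) ▸ mem_image_of_mem _ hz)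
  have eA : ∀ t, (fun z => f (ctr + z)) '' W.An (1 / 4) t =
      f '' (ball ctr t \ closedBall ctr (1 / 4)) := fun t => by
    rw [← tr_An_Glue2, image_image]
  have eC : ∀ t, (fun z => f (ctr + z)) '' W.Ac (1 / 4) t =
      f '' (closedBall ctr t \ closedBall ctr (1 / 4)) := fun t => by
    rw [← tr_Ac_Glue2, image_image]
  obtain ⟨z₀, hz₀⟩ := hne
  obtain ⟨x, ⟨x1, -⟩, x2⟩ := (Cp.mk z₀ hz₀).meets hE isOpen_ball ((Cp.sub _).trans hs)
  refine ⟨by norm_num, by norm_num, ⟨f x, Or.inr ⟨x, ⟨ball_subset_closedBall x1, x2⟩, rfl⟩⟩,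
    h.hol.comp ((differentiable_id.const_add ctr).differentiableOn) hm,
    h.inj.comp (add_right_injective ctr).injOn hm, ?_, fun t h1 h2 => ?_, fun t h1 h2 => ?_, ?_⟩
  · rw [eA, Set.disjoint_union_left, Set.disjoint_iUnion_left]
    refine ⟨fun c => (h.off c).symm.mono_right (image_mono hA), ?_⟩
    refine disjoint_image_image fun a ha b hb' e => hb'.2 ?_
    exact h.inj ⟨hQ (hb ha.1), ha.2⟩ (hA hb') e ▸ ha.1
  · rw [eA, union_assoc, ← image_union, un_Glue2 hs' (closedBall_subset_ball h1)]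
    exact open_of_out hE hs h h1.le (h2.trans (by norm_num))
  · rw [eC, union_assoc, ← image_union, un_Glue2 hs' (closedBall_subset_closedBall h1.le)]
    exact cpt_of_out hE.cpt hs h h1.le (h2.trans (by norm_num))
  · rw [eA, union_assoc, ← image_union, un_Glue2 hs' hb]
    have hP : IsPreconnected (f '' (ball ctr (1 / 3) \ E)) :=
      (con_Glue2 hE hs').image _ (h.hol.continuousOn.mono (sdiff_subset_sdiff_left hQ))
    have hx : f x ∈ f '' (ball ctr (1 / 3) \ E) :=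
      ⟨x, ⟨hb (ball_subset_closedBall x1), x2⟩, rfl⟩
    refine isPreconnected_of_forall (f x) ?_
    rintro y (hy | hy)
    · obtain ⟨c, hc⟩ := mem_iUnion.1 hy
      obtain ⟨y₀, h4, h5⟩ := meet_Glue2 hE h c isOpen_ball (c.sub.trans (hs'.trans hb))
      have h6 : IsPreconnected (insert y₀ (f '' (ball ctr (1 / 3) \ E))) :=
        hP.subset_closure (subset_insert _ _) (insert_subset
          (closure_mono (image_mono (sdiff_subset_sdiff_left inter_subset_left)) h4) subset_closure)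
      refine ⟨insert y₀ (f '' (ball ctr (1 / 3) \ E)) ∪ sqr (ζ c) (σ c), ?_,
        Or.inl (Or.inr hx), Or.inr hc,
        h6.union y₀ (mem_insert _ _) h5 (cvx_Icc _ _ _ _).isPreconnected⟩
      exact union_subset (insert_subset (Or.inl (mem_iUnion.2 ⟨c, h5⟩)) subset_union_right)
        fun w hw => Or.inl (mem_iUnion.2 ⟨c, hw⟩)
    · exact ⟨_, subset_union_right, hx, hy, hP⟩

end Vale.Agent.P116
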