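import Vale.Agent.P116.T.Defs
import Vale.Agent.P116.T.Pl

/-! P116 T/Hol: holomorphy in one pair of charts suffices. -/

open Metric Set Filter Function Topology Complex

noncomputable section

namespace Vale.Agent.P116

open OnePoint T in
theorem co_ch_hol (i : Bool) (z : ℂ) : co i (ch i z) = z := by
  cases i
  · rfl
  · by_cases h : z = 0
    · simp [ch, co, h]
    · simp [ch, co, h]

open OnePoint T in
theorem co_not_hol (j : Bool) (y : OnePoint ℂ) : co (!j) y = (co j y)⁻¹ := by
  induction y using OnePoint.rec <;> cases j <;> simp [co]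

open OnePoint T in
theorem ch_not_hol (i : Bool) {w : ℂ} (h : w ≠ 0) : ch (!i) w = ch i w⁻¹ := by
  cases i <;> simp [ch, h]

open OnePoint T in
theorem ch_ne_hol {i : Bool} {z w : ℂ} (h : ch i z = ch (!i) w) : w ≠ 0 := by
  rintro rfl
  cases i
  · simp [ch] at h
  · by_cases h0 : z = 0 <;> simp [ch, h0] at h

open OnePoint T in
/-- The transition maps are `z ↦ z⁻¹` at nonzero points; continuity of `f` at `x` keeps the values
near `x` in the range of both target charts (`range (ch false) = {∞}ᶜ`, `range (ch true) = {0}ᶜ`). -/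
theorem holAt_of {f : OnePoint ℂ → OnePoint ℂ} {x : OnePoint ℂ} (hc : ContinuousAt f x)
    (i j : Bool) (z : ℂ) (hz : ch i z = x) (hj : f x ∈ range (ch j))
    (hd : DifferentiableAt ℂ (co j ∘ f ∘ ch i) z) : HolAt f x := by
  refine ⟨hc, fun i' j' z' hz' hj' => ?_⟩
  have h1 : DifferentiableAt ℂ (co j' ∘ f ∘ ch i) z := by
    rcases Bool.eq_or_eq_not j' j with rfl | rfl
    · exact hd
    · obtain ⟨a, ha⟩ := hj
      obtain ⟨b, hb⟩ := hj'
      have h2 : a ≠ 0 := ch_ne_hol (i := !j) (z := b) (by rw [Bool.not_not, ha, hb])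
      have h3 : (co j ∘ f ∘ ch i) z ≠ 0 := by
        simp only [Function.comp, hz, ← ha, co_ch_hol]
        exact h2
      exact (hd.inv h3).congr_of_eventuallyEq (Eventually.of_forall fun w => co_not_hol j _)
  rcases Bool.eq_or_eq_not i' i with rfl | rfl
  · rw [← co_ch_hol i' z', hz', ← hz, co_ch_hol]
    exact h1
  · have h2 : z' ≠ 0 := ch_ne_hol (hz.trans hz'.symm)
    have h3 : z = z'⁻¹ := by rw [← co_ch_hol i z, hz, ← hz', ch_not_hol i h2, co_ch_hol]
    refine ((h3 ▸ h1).comp z' (differentiableAt_inv h2)).congr_of_eventuallyEq ?_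
    filter_upwards [isOpen_ne.mem_nhds h2] with w hw
    simp only [Function.comp, ch_not_hol i hw]

open OnePoint T in
theorem isDisk_ball (c : ℂ) {r : ℝ} (hr : 0 < r) :
    IsDisk ((fun z : ℂ => (z : OnePoint ℂ)) '' closedBall c r) := by
  have h0 : (r : ℂ) ≠ 0 := ofReal_ne_zero.2 hr.ne'
  refine ⟨Matrix.GeneralLinearGroup.mkOfDetNeZero !![(r : ℂ), c; 0, 1] (by simpa using hr.ne'), ?_⟩
  have e : ∀ z : ℂ, Matrix.GeneralLinearGroup.mkOfDetNeZero !![(r : ℂ), c; 0, 1]
      (by simpa using hr.ne') • (z : OnePoint ℂ) = ((r * z + c : ℂ) : OnePoint ℂ) := fun z => by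
    simp [OnePoint.smul_some_eq_ite]
  simp only [e]
  ext y
  constructor
  · rintro ⟨w, hw, rfl⟩
    refine ⟨(w - c) / r, ?_, congrArg _ (by field_simp; ring)⟩
    rw [mem_closedBall_zero_iff, norm_div, norm_real, Real.norm_of_nonneg hr.le, div_le_one hr]
    exact mem_closedBall_iff_norm.1 hw
  · rintro ⟨w, hw, rfl⟩
    refine ⟨r * w + c, ?_, rfl⟩
    rw [mem_closedBall_iff_norm, add_sub_cancel_right, norm_mul, norm_real,
      Real.norm_of_nonneg hr.le]
    exact mul_le_of_le_one_right hr.le (mem_closedBall_zero_iff.1 hw)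

open OnePoint T in
/-- The complement of a compact set with connected complement in the plane is a domain, and the
components correspond under the embedding `ℂ → OnePoint ℂ`. -/
theorem dom_compl {X : Set ℂ} (hX : IsCompact X) (hc : IsPreconnected Xᶜ) :
    IsDomain ((fun z : ℂ => (z : OnePoint ℂ)) '' X)ᶜ ∧ ∀ y ∈ X,
      connectedComponentIn ((fun z : ℂ => (z : OnePoint ℂ)) '' X) (y : OnePoint ℂ) =
        (fun z : ℂ => (z : OnePoint ℂ)) '' connectedComponentIn X y := by
  have hi : (∞ : OnePoint ℂ) ∈ ((fun z : ℂ => (z : OnePoint ℂ)) '' X)ᶜ := infty_notMem_image_coe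
  refine ⟨⟨(hX.image continuous_coe).isClosed.isOpen_compl, ⟨_, hi⟩, ?_⟩, fun y hy => ?_⟩
  · refine (hc.image _ continuous_coe.continuousOn).subset_closure ?_ fun y hy => ?_
    · rintro _ ⟨z, hz, rfl⟩ ⟨w, hw, e⟩
      exact hz (coe_injective e ▸ hw)
    · induction y using OnePoint.rec with
      | infty =>
        refine mem_closure_of_tendsto (b := coclosedCompact ℂ) tendsto_coe_infty ?_
        filter_upwards [hX.compl_mem_coclosedCompact_of_isClosed hX.isClosed] with z hz
        exact ⟨z, hz, rfl⟩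
      | coe z => exact subset_closure ⟨z, fun hz => hy ⟨z, hz, rfl⟩, rfl⟩
  refine Subset.antisymm ?_ (continuous_coe.continuousOn.image_connectedComponentIn_subset hy)
  have h1 := connectedComponentIn_subset ((fun z : ℂ => (z : OnePoint ℂ)) '' X) (y : OnePoint ℂ)
  have h2 := image_preimage_eq_of_subset (h1.trans (image_subset_range _ _))
  rw [← h2]
  refine image_mono (IsPreconnected.subset_connectedComponentIn ?_
    (mem_connectedComponentIn (mem_image_of_mem _ hy)) fun z hz => ?_)
  · rw [← isOpenEmbedding_coe.isInducing.isPreconnected_image]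
    exact h2.symm ▸ isPreconnected_connectedComponentIn
  · obtain ⟨w, hw, e⟩ := h1 hz
    exact coe_injective e ▸ hw

end Vale.Agent.P116
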