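import Vale.Agent.P116.T.Hol
import Vale.Agent.P116.T.Glue

/-! P116 T/Red: reduction of a domain in the sphere to the plane. -/

open Metric Set Filter Function Topology Complex

noncomputable section

namespace Vale.Agent.P116

open OnePoint T in
/-- The Moebius map `x ↦ ctr + l / (x - a)`. -/
def mb (a : ℂ) (l : ℝ) (x : OnePoint ℂ) : OnePoint ℂ :=
  x.elim (ctr : OnePoint ℂ) fun z => if z = a then ∞ else ((ctr + l / (z - a) : ℂ) : OnePoint ℂ)

open OnePoint in
/-- The Moebius map `x ↦ c + l / (x - a)`. -/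
def moRed (c a l : ℂ) (x : OnePoint ℂ) : OnePoint ℂ :=
  x.elim (c : OnePoint ℂ) fun z => if z = a then ∞ else ((c + l / (z - a) : ℂ) : OnePoint ℂ)

open OnePoint in
theorem inv_red (c a : ℂ) {l : ℂ} (hl : l ≠ 0) (x : OnePoint ℂ) :
    moRed a c l (moRed c a l x) = x := by
  induction x using OnePoint.rec with
  | infty => simp [moRed]
  | coe z =>
    by_cases h : z = a
    · simp [moRed, h]
    · have h1 : z - a ≠ 0 := sub_ne_zero.2 h
      have h2 : a + l / (c + l / (z - a) - c) = z := by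
        rw [add_sub_cancel_left]
        field_simp
        ring
      simp only [moRed, elim_some, if_neg h]
      rw [if_neg (by simp [hl, h1]), h2]

open OnePoint in
theorem cont_red (c a : ℂ) {l : ℂ} (hl : l ≠ 0) : Continuous (moRed c a l) := by
  have e : ∀ z : ℂ, z ≠ a → ((c + l / (z - a) : ℂ) : OnePoint ℂ) = moRed c a l z := fun z hz => by
    simp only [moRed, elim_some, if_neg hz]
  have hk : coclosedCompact ℂ = Bornology.cobounded ℂ := by
    rw [coclosedCompact_eq_cocompact, cobounded_eq_cocompact]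
  rw [OnePoint.continuous_iff, hk]
  refine ⟨?_, continuous_iff_continuousAt.2 fun z => ?_⟩
  · have h1 : Tendsto (fun z : ℂ => c + l / (z - a)) (Bornology.cobounded ℂ) (𝓝 c) := by
      have := ((tendsto_inv₀_cobounded.comp (tendsto_sub_const_cobounded a)).const_mul l).const_add c
      simpa [div_eq_mul_inv] using this
    refine ((continuous_coe.tendsto c).comp h1).congr' ?_
    filter_upwards [(Bornology.isBounded_singleton (x := a)).compl] with z hz
    exact e z hz
  · by_cases h : z = a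
    · rw [← continuousWithinAt_compl_self, h]
      have h0 : moRed c a l a = ∞ := by simp [moRed]
      have h1 : Tendsto (fun z : ℂ => z - a) (𝓝[≠] a) (𝓝[≠] 0) :=
        tendsto_nhdsWithin_iff.2 ⟨by
          simpa using ((continuous_sub_right a).tendsto a).mono_left nhdsWithin_le_nhds,
          eventually_mem_nhdsWithin.mono fun z hz => sub_ne_zero.2 hz⟩
      have h2 : Tendsto (fun z : ℂ => c + l / (z - a)) (𝓝[≠] a) (coclosedCompact ℂ) := by
        rw [hk]
        exact (tendsto_const_add_cobounded c).comp ((tendsto_mul_left_cobounded hl).comp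
          (tendsto_inv₀_nhdsNE_zero.comp h1))
      unfold ContinuousWithinAt
      simp only [h0]
      refine (tendsto_coe_infty.comp h2).congr' ?_
      filter_upwards [self_mem_nhdsWithin] with z hz
      exact e z hz
    · have h1 : ContinuousAt (fun z : ℂ => c + l / (z - a)) z :=
        continuousAt_const.add (continuousAt_const.div (by fun_prop) (sub_ne_zero.2 h))
      refine (continuous_coe.continuousAt.comp h1).congr ?_
      filter_upwards [isOpen_ne.mem_nhds h] with z hz
      exact e z hz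

open OnePoint in
theorem con_red {H : Set (OnePoint ℂ)} (hc : IsPreconnected H) (hi : ∞ ∈ H) {R : ℝ} (hR : 0 ≤ R)
    (hO : ∀ z : ℂ, R < ‖z‖ → (z : OnePoint ℂ) ∈ H) :
    IsPreconnected {z : ℂ | (z : OnePoint ℂ) ∈ H} := by
  have key : ∀ u v : Set ℂ, IsOpen u → IsOpen v → {z : ℂ | (z : OnePoint ℂ) ∈ H} ⊆ u ∪ v →
      {z : ℂ | (z : OnePoint ℂ) ∈ H} ∩ (u ∩ v) = ∅ → {z : ℂ | R < ‖z‖} ⊆ u →
      {z : ℂ | (z : OnePoint ℂ) ∈ H} ⊆ u := fun u v hu hv h1 h2 h3 => by
    have hk : IsCompact uᶜ := (isCompact_closedBall (0 : ℂ) R).of_isClosed_subset hu.isClosed_compl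
      fun z hz => mem_closedBall_zero_iff.2 (not_lt.1 fun h => hz (h3 h))
    have hm : ∀ z : ℂ, (z : OnePoint ℂ) ∈ ((fun z : ℂ => (z : OnePoint ℂ)) '' uᶜ)ᶜ ↔ z ∈ u :=
      fun z => by rw [mem_compl_iff, coe_injective.mem_set_image, notMem_compl_iff]
    rcases isPreconnected_iff_subset_of_disjoint.1 hc _ _
      (isOpen_compl_image_coe.2 ⟨hu.isClosed_compl, hk⟩) (isOpen_image_coe.2 hv) (fun x hx => by
        induction x using OnePoint.rec with
        | infty => exact Or.inl infty_notMem_image_coe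
        | coe z => exact (h1 hx).imp (hm z).2 (mem_image_of_mem _))
      (eq_empty_of_forall_notMem fun x ⟨h4, h5, z, h6, h7⟩ => by
        subst h7
        exact (h2.subset ⟨h4, (hm z).1 h5, h6⟩ :)) with h | h
    · exact fun z hz => (hm z).1 (h hz)
    · exact absurd (h hi) infty_notMem_image_coe
  refine isPreconnected_iff_subset_of_disjoint.2 fun u v hu hv h1 h2 => ?_
  rcases isPreconnected_iff_subset_of_disjoint.1 (W.out_con hR) u v hu hv
    (fun z hz => h1 (hO z hz)) (eq_empty_of_forall_notMem fun z hz =>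
      (h2.subset ⟨hO z hz.1, hz.2⟩ :)) with h | h
  · exact Or.inl (key u v hu hv h1 h2 h)
  · exact Or.inr (key v u hv hu (union_comm u v ▸ h1) (inter_comm u v ▸ h2) h)

open OnePoint T in
/-- Take a finite point `a ∈ G` with `ball a δ ⊆ G`, `l = δ / 8`; `mb a l` is a homeomorphism;
`E = {z | ↑z ∉ mb a l '' G}`. `Eᶜ` is preconnected: it is the connected open set `mb a l '' G`
minus `∞`, and a punctured neighbourhood `{R < ‖z‖}` of `∞` is connected (`W.out_con`). -/
theorem reduce {G : Set (OnePoint ℂ)} (hG : IsDomain G) :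
    ∃ (a : ℂ) (l : ℝ) (E : Set ℂ), 0 < l ∧ IsCompact E ∧ E ⊆ ball ctr (1 / 4) ∧
      IsPreconnected Eᶜ ∧ BijOn (mb a l) G ((fun z : ℂ => (z : OnePoint ℂ)) '' E)ᶜ ∧
      Continuous (mb a l) := by
  obtain ⟨a, ha⟩ := denseRange_coe.exists_mem_open hG.1 hG.2.nonempty
  obtain ⟨δ, hδ, hb⟩ := Metric.isOpen_iff.1 (hG.1.preimage continuous_coe) a ha
  have hl : ((δ / 8 : ℝ) : ℂ) ≠ 0 := ofReal_ne_zero.2 (by positivity)
  have e : mb a (δ / 8) = moRed ctr a ((δ / 8 : ℝ) : ℂ) := rfl
  have i1 := inv_red ctr a hl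
  have i2 := inv_red a ctr hl
  have hH : mb a (δ / 8) '' G = moRed a ctr ((δ / 8 : ℝ) : ℂ) ⁻¹' G := by
    rw [e]
    exact congrFun (image_eq_preimage_of_inverse i1 i2) G
  have ho : IsOpen (mb a (δ / 8) '' G) := hH ▸ hG.1.preimage (cont_red a ctr hl)
  have hi : ∞ ∈ mb a (δ / 8) '' G := hH ▸ ha
  have hs : {z : ℂ | (z : OnePoint ℂ) ∈ mb a (δ / 8) '' G}ᶜ ⊆ ball ctr (1 / 4) := fun w hw => by
    by_contra h
    rw [mem_ball, not_lt, dist_eq_norm] at h
    have h1 : w ≠ ctr := fun h1 => by
      rw [h1, sub_self, norm_zero] at h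
      norm_num at h
    refine hw ?_
    rw [mem_ofPred_eq, hH, mem_preimage]
    simp only [moRed, elim_some, if_neg h1]
    refine hb ?_
    rw [mem_ball, dist_eq_norm, add_sub_cancel_left, norm_div, norm_real,
      Real.norm_of_nonneg (by positivity), div_lt_iff₀ (by linarith)]
    nlinarith
  refine ⟨a, δ / 8, {z : ℂ | (z : OnePoint ℂ) ∈ mb a (δ / 8) '' G}ᶜ, by positivity,
    ((isOpen_iff_of_mem' hi).1 ho).1, hs, ?_, ?_, cont_red ctr a hl⟩
  · rw [compl_compl]
    refine con_red (hG.2.2.image _ (cont_red ctr a hl).continuousOn) hi (R := ‖ctr‖ + 1)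
      (by positivity) fun z hz => ?_
    by_contra h
    have h1 := hs h
    rw [mem_ball, dist_eq_norm] at h1
    linarith [norm_sub_norm_le z ctr]
  · have h1 : ((fun z : ℂ => (z : OnePoint ℂ)) ''
        {z : ℂ | (z : OnePoint ℂ) ∈ mb a (δ / 8) '' G}ᶜ)ᶜ = mb a (δ / 8) '' G := by
      ext x
      induction x using OnePoint.rec with
      | infty => exact ⟨fun _ => hi, fun _ => infty_notMem_image_coe⟩
      | coe z => rw [mem_compl_iff, coe_injective.mem_set_image, notMem_compl_iff, mem_ofPred_eq]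
    rw [h1]
    exact (LeftInverse.injective i1).injOn.bijOn_image

end Vale.Agent.P116
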