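import Vale.Agent.P116.T.Red

/-! P116 T/Red2: the conformal equivalence on the sphere. -/

open Metric Set Filter Function Topology Complex

noncomputable section

namespace Vale.Agent.P116

open OnePoint in
theorem bij_Red2 {E X : Set ℂ} {g : ℂ → ℂ} (h : Glob E g X) :
    BijOn (OnePoint.map g) ((fun z : ℂ => (z : OnePoint ℂ)) '' E)ᶜ
      ((fun z : ℂ => (z : OnePoint ℂ)) '' X)ᶜ := by
  have e : ∀ (A : Set ℂ) (z : ℂ),
      (z : OnePoint ℂ) ∈ ((fun z : ℂ => (z : OnePoint ℂ)) '' A)ᶜ ↔ z ∈ Aᶜ := fun A z =>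
    not_congr coe_injective.mem_set_image
  refine ⟨fun x hx => ?_, fun x hx y hy k => ?_, fun y hy => ?_⟩
  · induction x using OnePoint.rec with
    | infty => exact infty_notMem_image_coe
    | coe z => exact (e _ _).2 (h.img ▸ mem_image_of_mem g ((e _ _).1 hx))
  · induction x using OnePoint.rec <;> induction y using OnePoint.rec
    · rfl
    · exact absurd k (infty_ne_coe _)
    · exact absurd k (coe_ne_infty _)
    · exact congrArg _ (h.inj ((e _ _).1 hx) ((e _ _).1 hy) (coe_injective k))
  · induction y using OnePoint.rec with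
    | infty => exact ⟨∞, infty_notMem_image_coe, rfl⟩
    | coe w =>
      obtain ⟨z, hz, rfl⟩ := h.img.ge ((e _ _).1 hy)
      exact ⟨z, (e _ _).2 hz, rfl⟩

open OnePoint T in
/-- `f = (fun x => x.elim ∞ fun z => ↑(g z)) ∘ mb a l`. Use `holAt_of`: at a finite `x ≠ a` charts
`false, false`; at `∞` charts `true, false` (`u ↦ g (ctr + l * u / (1 - a * u))`); at `a` charts
`false, true` (removable singularity,
`analyticAt_of_differentiable_on_punctured_nhds_of_continuousAt`). -/
theorem confEq_of {G : Set (OnePoint ℂ)} {a : ℂ} {l : ℝ} {E X : Set ℂ} {g : ℂ → ℂ} (hl : 0 < l)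
    (hE : IsCompact E) (hb : BijOn (mb a l) G ((fun z : ℂ => (z : OnePoint ℂ)) '' E)ᶜ)
    (hm : Continuous (mb a l)) (h : Glob E g X) :
    ConfEq G ((fun z : ℂ => (z : OnePoint ℂ)) '' X)ᶜ := by
  have hd : ∀ z : ℂ, (z : OnePoint ℂ) ∈ ((fun z : ℂ => (z : OnePoint ℂ)) '' E)ᶜ →
      DifferentiableAt ℂ g z := fun z hz =>
    h.hol.differentiableAt (hE.isClosed.isOpen_compl.mem_nhds fun k => hz ⟨z, k, rfl⟩)
  have hc : ∀ y ∈ ((fun z : ℂ => (z : OnePoint ℂ)) '' E)ᶜ, ContinuousAt (OnePoint.map g) y := by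
    intro y hy
    induction y using OnePoint.rec with
    | infty =>
      refine continuousAt_infty'.2 (tendsto_coe_infty.comp (f := g) ?_)
      rw [coclosedCompact_eq_cocompact]
      exact h.inf
    | coe z => exact continuousAt_coe.2 (continuous_coe.continuousAt.comp (hd z hy).continuousAt)
  have m1 : ∀ u : ℂ, u ≠ a → mb a l u = ((ctr + l / (u - a) : ℂ) : OnePoint ℂ) := fun u hu =>
    if_neg hu
  have m2 : mb a l a = ∞ := if_pos rfl
  have dw : ∀ u : ℂ, u ≠ a → DifferentiableAt ℂ (fun u : ℂ => ctr + l / (u - a)) u := fun u hu =>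
    ((differentiableAt_const _).div (differentiableAt_id.sub_const a)
      (sub_ne_zero.2 hu)).const_add _
  refine ⟨OnePoint.map g ∘ mb a l, (bij_Red2 h).comp hb, fun x hx => ?_⟩
  have hx' := hb.mapsTo hx
  have hcx := (hc _ hx').comp hm.continuousAt
  induction x using OnePoint.rec with
  | infty =>
    refine holAt_of hcx true false 0 (by simp [ch]) ⟨g ctr, rfl⟩ ?_
    have k1 : DifferentiableAt ℂ (fun u : ℂ => ctr + l * u / (1 - a * u)) 0 :=
      (DifferentiableAt.div (by fun_prop) (by fun_prop) (by simp)).const_add _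
    refine (DifferentiableAt.comp 0 (by simpa using hd ctr hx') k1).congr_of_eventuallyEq ?_
    have k2 : ∀ᶠ u : ℂ in 𝓝 0, 1 - a * u ≠ 0 :=
      ContinuousAt.eventually_ne (by fun_prop) (by simp)
    filter_upwards [k2] with u hu
    rcases eq_or_ne u 0 with rfl | h0
    · simp [ch, co, mb]
    · have k3 : u⁻¹ ≠ a := fun e => hu (by rw [← e, inv_mul_cancel₀ h0, sub_self])
      have k4 : (l : ℂ) / (u⁻¹ - a) = l * u / (1 - a * u) := by
        rw [div_eq_div_iff (sub_ne_zero.2 k3) hu]
        field_simp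
      simp [ch, co, h0, m1 _ k3, k4]
  | coe z =>
    rcases ne_or_eq z a with hz | rfl
    · rw [m1 z hz] at hx'
      refine holAt_of hcx false false z rfl ⟨g (ctr + l / (z - a)), by simp [ch, m1 z hz]⟩
        (((hd _ hx').comp z (dw z hz)).congr_of_eventuallyEq ?_)
      filter_upwards [isOpen_ne.mem_nhds hz] with u hu
      simp [ch, co, m1 u hu]
    refine holAt_of hcx false true z rfl ⟨0, by simp [ch, m2]⟩ ?_
    have e : ∀ u : ℂ, u ≠ z → (co true ∘ (OnePoint.map g ∘ mb z l) ∘ ch false) u =
        (g (ctr + l / (u - z)))⁻¹ := fun u hu => by simp [ch, co, m1 u hu]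
    have t1 : Tendsto (fun u : ℂ => ctr + l / (u - z)) (𝓝[≠] z) (cocompact ℂ) := by
      rw [← coclosedCompact_eq_cocompact, ← comap_coe_nhds_infty, tendsto_comap_iff, ← m2]
      exact (((hm.comp continuous_coe).tendsto z).mono_left nhdsWithin_le_nhds).congr'
        (eventually_nhdsWithin_of_forall m1)
    have t2 := h.inf.comp t1
    refine (analyticAt_of_differentiable_on_punctured_nhds_of_continuousAt ?_
      (continuousAt_iff_punctured_nhds.2 ?_)).differentiableAt
    · filter_upwards [self_mem_nhdsWithin, t1.eventually hE.compl_mem_cocompact,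
        t2.eventually (isCompact_singleton (x := (0 : ℂ))).compl_mem_cocompact] with u h1 h2 h3
      refine (((hd _ fun k => h2 (coe_injective.mem_set_image.1 k)).comp u (dw u h1)).inv
        h3).congr_of_eventuallyEq ?_
      filter_upwards [isOpen_ne.mem_nhds h1] with v hv
      exact e v hv
    · rw [← cobounded_eq_cocompact] at t2
      rw [show (co true ∘ (OnePoint.map g ∘ mb z l) ∘ ch false) z = 0 by simp [ch, co, m2]]
      exact (tendsto_inv₀_cobounded.comp t2).congr'
        (eventually_nhdsWithin_of_forall fun u hu => (e u hu).symm)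

end Vale.Agent.P116
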