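import Vale.Agent.P116.T.Top
import Vale.Agent.P116.R.Main

/-! P116 T/TopC: the circle domain theorem, given steps (1) to (4). -/

open Metric Set Filter Function Topology Complex

noncomputable section

namespace Vale.Agent.P116

open T in
theorem thmC (hS : SeqEx) {G : Set (OnePoint ℂ)} (hG : IsDomain G) :
    ∃ Ω, IsCircleDomain Ω ∧ ConfEq G Ω := by
  obtain ⟨a, l, E, hl, hE, hs, hc, hb, hm⟩ := reduce hG
  obtain ⟨Ψ, φ, F, V, h1, h2⟩ := planarB hS hE hs hc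
  obtain ⟨g, X, h3, h4⟩ := schramm h1 (h2.con hc)
  have h5 := h2.comp h3
  obtain ⟨d1, d2⟩ := dom_compl h4.cpt (h5.con hc)
  refine ⟨_, ⟨d1, ?_⟩, confEq_of hl hE hb hm h5⟩
  rw [compl_compl]
  rintro _ ⟨y, hy, rfl⟩
  obtain ⟨c, r, hr, e⟩ := h4.cmp y hy
  rw [d2 y hy, e]
  rcases hr.eq_or_lt with rfl | hr
  · exact Or.inl ⟨c, by rw [closedBall_zero, image_singleton]⟩
  · exact Or.inr (isDisk_ball c hr)

end Vale.Agent.P116
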